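import Vale.Agent.P369.Aniso.Scalar2

/-!
The real-analysis end of the thermal flow: from the one-sided flow inequality and the pointwise
lower bound of the entropy production to the growth of the entropy photon number.
-/

namespace Vale.Agent.P369N

open Real Set Filter MeasureTheory
open scoped Topology

noncomputable section

/-- `φ(x) = b(x) (N - x)` is nonincreasing -/
theorem phi_anti {N : ℝ} (hN : 0 < N) : AntitoneOn (fun x => bb x * (N - x)) (Ioi 0) := by
  have hd : ∀ x : ℝ, 0 < x → HasDerivAt (fun x => bb x * (N - x))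
      (-(1 / (x * (x + 1))) * (N - x) + bb x * (-1)) x := by
    intro x hx
    exact (hasDerivAt_bb hx).mul ((hasDerivAt_id x).const_sub N)
  refine antitoneOn_of_deriv_nonpos (convex_Ioi 0)
    (fun x hx => (hd x hx).continuousAt.continuousWithinAt) ?_ ?_
  · intro x hx
    rw [interior_Ioi] at hx
    exact (hd x hx).differentiableAt.differentiableWithinAt
  · intro x hx
    rw [interior_Ioi] at hx
    have hx : 0 < x := hx
    rw [(hd x hx).deriv]
    have h1 := lt_mul_bb hx
    have h2 : 1 / (x + 1) < bb x := by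
      rw [div_lt_iff₀ (by linarith)]
      linarith
    have h3 : -(1 / (x * (x + 1))) * (N - x) = 1 / (x + 1) - N / (x * (x + 1)) := by
      field_simp
      ring
    have h4 : 0 ≤ N / (x * (x + 1)) := by positivity
    rw [h3]
    linarith

theorem g_mono_aux {a b : ℝ} (_ha : 0 < a) (hb : 0 < b) (h : P369.g a ≤ P369.g b) : a ≤ b := by
  by_contra hc
  push Not at hc
  obtain ⟨c, hc1, hc2⟩ := exists_hasDerivAt_eq_slope P369.g bb hc
    (fun x hx => (hasDerivAt_g (hb.trans_le hx.1)).continuousAt.continuousWithinAt)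
    (fun x hx => hasDerivAt_g (hb.trans hx.1))
  have h1 := bb_pos (hb.trans hc1.1)
  rw [hc2] at h1
  have h2 : 0 < P369.g a - P369.g b := by
    by_contra h3
    push Not at h3
    have := div_nonpos_of_nonpos_of_nonneg h3 (show 0 ≤ a - b by linarith)
    linarith
  linarith

/-- Fatou's lemma in the form needed here. -/
theorem fatou_aux {P : ℕ → ℝ → ℝ} {a b C D : ℝ} {ψ : ℝ → ℝ} (hab : a ≤ b)
    (hc : ∀ X, ContinuousOn (P X) (Icc a b)) (hC : ∀ X, ∀ t ∈ Icc a b, -C ≤ P X t)
    (hψ : ContinuousOn ψ (Icc a b))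
    (hrate : ∀ t ∈ Ioc a b, ∀ ε > 0, ∀ᶠ X in atTop, ψ t - ε ≤ P X t)
    (hflow : ∀ ε > 0, ∀ᶠ X in atTop, ∫ t in a..b, P X t ≤ D + ε) :
    ∫ t in a..b, ψ t ≤ D := by
  have hcm : ∀ X, ContinuousOn (fun t => min (P X t) (ψ t)) (Icc a b) := fun X =>
    (hc X).inf hψ
  have ii : ∀ {f : ℝ → ℝ}, ContinuousOn f (Icc a b) → IntervalIntegrable f volume a b := by
    intro f hf
    apply ContinuousOn.intervalIntegrable
    rwa [uIcc_of_le hab]
  have hlim : Tendsto (fun X => ∫ t in a..b, min (P X t) (ψ t)) atTop (𝓝 (∫ t in a..b, ψ t)) := by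
    refine intervalIntegral.tendsto_integral_filter_of_dominated_convergence
      (fun t => |C| + |ψ t|) ?_ ?_ ?_ ?_
    · refine Eventually.of_forall fun X => ?_
      rw [uIoc_of_le hab]
      exact ((hcm X).mono Ioc_subset_Icc_self).aestronglyMeasurable measurableSet_Ioc
    · refine Eventually.of_forall fun X => Eventually.of_forall fun t ht => ?_
      rw [uIoc_of_le hab] at ht
      have h1 := hC X t ⟨ht.1.le, ht.2⟩
      rw [Real.norm_eq_abs, abs_le]
      constructor
      · have h2 := neg_abs_le (ψ t)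
        have h3 := le_abs_self C
        have h4 := abs_nonneg (ψ t)
        have h5 := abs_nonneg C
        refine le_min ?_ ?_ <;> linarith
      · have h2 := le_abs_self (ψ t)
        have h5 := abs_nonneg C
        have := min_le_right (P X t) (ψ t)
        linarith
    · exact ii (continuousOn_const.add hψ.abs)
    · refine Eventually.of_forall fun t ht => ?_
      rw [uIoc_of_le hab] at ht
      rw [Metric.tendsto_nhds]
      intro ε hε
      filter_upwards [hrate t ht (ε / 2) (by linarith)] with X hX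
      rw [Real.dist_eq, abs_lt]
      have h1 := min_le_right (P X t) (ψ t)
      have h2 : ψ t - ε / 2 ≤ min (P X t) (ψ t) := le_min hX (by linarith)
      constructor <;> linarith
  refine le_of_forall_pos_le_add fun ε hε => ?_
  refine le_of_tendsto hlim ?_
  filter_upwards [hflow ε hε] with X hX
  refine le_trans ?_ hX
  refine intervalIntegral.integral_mono_on hab (ii (hcm X)) (ii (hc X)) fun t _ => min_le_left _ _

/-- The growth of the entropy photon number from the one-sided flow inequality and the pointwise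
lower bound of the entropy production. -/
theorem ode_block {n : ℕ} (hn : 1 ≤ n) {S R : ℝ → ℝ} {P : ℕ → ℝ → ℝ} {t0 T N C : ℝ}
    (hT : t0 ≤ T) (hN : 0 < N) (hR : ∀ t ∈ Icc t0 T, 0 < R t)
    (hS : ∀ t ∈ Icc t0 T, S t = n * P369.g (R t))
    (hc : ∀ X, ContinuousOn (P X) (Icc t0 T))
    (hC : ∀ X, ∀ t ∈ Icc t0 T, -C ≤ P X t)
    (hflow : ∀ a b, t0 ≤ a → a ≤ b → b ≤ T → ∀ ε > 0,
      ∀ᶠ X in atTop, ∫ t in a..b, P X t ≤ S b - S a + ε)
    (hrate : ∀ t ∈ Icc t0 T, ∀ ε > 0, ∀ᶠ X in atTop,
      n * (bb (R t) * (N - R t)) - ε ≤ P X t) :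
    N + Real.exp (-(T - t0)) * (R t0 - N) ≤ R T := by
  have hn' : (0 : ℝ) < n := by exact_mod_cast hn
  -- the comparison curve
  set r : ℝ → ℝ := fun t => N + Real.exp (-(t - t0)) * (R t0 - N) with hr
  have hr0 : r t0 = R t0 := by simp [hr]
  have hrpos : ∀ t, t0 ≤ t → 0 < r t := by
    intro t ht
    have h1 : Real.exp (-(t - t0)) ≤ 1 := by
      rw [Real.exp_le_one_iff]
      linarith
    have h2 := Real.exp_pos (-(t - t0))
    have h3 := hR t0 ⟨le_rfl, hT⟩
    have e : r t = (1 - Real.exp (-(t - t0))) * N + Real.exp (-(t - t0)) * R t0 := by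
      simp only [hr]; ring
    rw [e]
    have h4 : 0 ≤ (1 - Real.exp (-(t - t0))) * N := mul_nonneg (by linarith) hN.le
    have h5 : 0 < Real.exp (-(t - t0)) * R t0 := mul_pos h2 h3
    linarith
  have hrd : ∀ t, HasDerivAt r (N - r t) t := by
    intro t
    have h1 : HasDerivAt (fun t : ℝ => -(t - t0)) (-1) t :=
      ((hasDerivAt_id t).sub_const t0).neg
    have h2 := (h1.exp.mul_const (R t0 - N)).const_add N
    refine h2.congr_deriv ?_
    simp only [hr]
    ring
  set G : ℝ → ℝ := fun t => n * P369.g (r t) with hG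
  have hGd : ∀ t, t0 ≤ t → HasDerivAt G (n * (bb (r t) * (N - r t))) t := fun t ht =>
    ((hasDerivAt_g (hrpos t ht)).comp t (hrd t)).const_mul (n : ℝ)
  have hrc : Continuous r := continuous_iff_continuousAt.2 fun t => (hrd t).continuousAt
  have hψc : ContinuousOn (fun t => n * (bb (r t) * (N - r t))) (Icc t0 T) := by
    refine continuousOn_const.mul (ContinuousOn.mul ?_ (by fun_prop))
    intro t ht
    exact ((hasDerivAt_bb (hrpos t ht.1)).continuousAt.comp
      hrc.continuousAt).continuousWithinAt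
  -- only upward jumps
  have hup : ∀ a b, t0 ≤ a → a ≤ b → b ≤ T → -C * (b - a) ≤ S b - S a := by
    intro a b ha hab hb
    refine le_of_forall_pos_le_add fun ε hε => ?_
    obtain ⟨X, hX⟩ := (hflow a b ha hab hb ε hε).exists
    refine le_trans ?_ hX
    have h1 : ∫ _ in a..b, -C = -C * (b - a) := by
      rw [intervalIntegral.integral_const, smul_eq_mul]; ring
    rw [← h1]
    refine intervalIntegral.integral_mono_on hab intervalIntegrable_const ?_ fun t ht => ?_
    · apply ContinuousOn.intervalIntegrable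
      rw [uIcc_of_le hab]
      exact (hc X).mono (Icc_subset_Icc ha hb)
    · exact hC X t ⟨ha.trans ht.1, ht.2.trans hb⟩
  by_contra hcon
  push Not at hcon
  have hTr : R T < r T := hcon
  -- the last time before which the comparison holds
  set A : Set ℝ := {t | t ∈ Icc t0 T ∧ r t ≤ R t} with hA
  have hA0 : t0 ∈ A := ⟨⟨le_rfl, hT⟩, hr0.le⟩
  have hAb : BddAbove A := ⟨T, fun t ht => ht.1.2⟩
  set u := sSup A with hu
  have hu0 : t0 ≤ u := le_csSup hAb hA0
  have huT : u ≤ T := csSup_le ⟨t0, hA0⟩ fun t ht => ht.1.2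
  have huI : u ∈ Icc t0 T := ⟨hu0, huT⟩
  have huA : r u ≤ R u := by
    apply g_mono_aux (hrpos u hu0) (hR u huI)
    have h1 : G u ≤ S u := by
      refine le_of_forall_pos_le_add fun ε hε => ?_
      have hGc : ContinuousAt G u := (hGd u hu0).continuousAt
      have h2 : ∀ᶠ t in 𝓝 u, G u - ε / 2 < G t :=
        hGc.eventually (lt_mem_nhds (by linarith))
      have h3 : ∀ᶠ t in 𝓝 u, |C| * |u - t| < ε / 2 := by
        have h4 : Tendsto (fun t => |C| * |u - t|) (𝓝 u) (𝓝 (|C| * |u - u|)) :=
          (by fun_prop : Continuous fun t => |C| * |u - t|).tendsto u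
        rw [sub_self, abs_zero, mul_zero] at h4
        exact h4.eventually (gt_mem_nhds (by linarith))
      obtain ⟨δ, hδ, hball⟩ := Metric.eventually_nhds_iff.1 (h2.and h3)
      obtain ⟨s, hsA, hsu⟩ := exists_lt_of_lt_csSup ⟨t0, hA0⟩ (show u - δ < u by linarith)
      have hs1 : s ≤ u := le_csSup hAb hsA
      obtain ⟨h5, h6⟩ := hball (y := s) (by
        rw [Real.dist_eq, abs_lt]
        constructor <;> linarith)
      have h7 := hup s u hsA.1.1 hs1 huT
      have h8 : G s ≤ S s := by
        rw [hS s hsA.1]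
        simp only [hG]
        refine mul_le_mul_of_nonneg_left ?_ hn'.le
        rcases hsA.2.eq_or_lt with h9 | h9
        · rw [h9]
        · have hrs := hrpos s hsA.1.1
          obtain ⟨c, hc1, hc2⟩ := exists_hasDerivAt_eq_slope P369.g bb h9
            (fun x hx => (hasDerivAt_g (hrs.trans_le hx.1)).continuousAt.continuousWithinAt)
            (fun x hx => hasDerivAt_g (hrs.trans hx.1))
          have h1 := bb_pos (hrs.trans hc1.1)
          rw [hc2, div_pos_iff_of_pos_right (by linarith)] at h1
          linarith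
      have h9 : C * (u - s) ≤ |C| * |u - s| := by
        refine mul_le_mul (le_abs_self C) (le_abs_self _) (by linarith) (abs_nonneg C)
      linarith
    rw [hS u huI] at h1
    exact le_of_mul_le_mul_left h1 hn'
  have huT' : u < T := by
    rcases huT.eq_or_lt with h | h
    · rw [h] at huA
      linarith
    · exact h
  have hlt : ∀ t ∈ Ioc u T, R t < r t := by
    intro t ht
    by_contra h
    push Not at h
    have : t ∈ A := ⟨⟨hu0.trans ht.1.le, ht.2⟩, h⟩
    have := le_csSup hAb this
    linarith [ht.1]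
  have key := fatou_aux (P := P) (a := u) (b := T) (C := C) (D := S T - S u)
    (ψ := fun t => n * (bb (r t) * (N - r t))) huT'.le
    (fun X => (hc X).mono (Icc_subset_Icc_left hu0))
    (fun X t ht => hC X t ⟨hu0.trans ht.1, ht.2⟩) (hψc.mono (Icc_subset_Icc_left hu0))
    (fun t ht ε hε => by
      have htI : t ∈ Icc t0 T := ⟨hu0.trans ht.1.le, ht.2⟩
      filter_upwards [hrate t htI ε hε] with X hX
      have h1 := phi_anti hN (hR t htI) (hrpos t htI.1) (hlt t ht).le
      have h2 := mul_le_mul_of_nonneg_left h1 hn'.le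
      simp only at h2
      linarith)
    (hflow u T hu0 huT'.le le_rfl)
  have hint : ∫ t in u..T, n * (bb (r t) * (N - r t)) = G T - G u := by
    refine intervalIntegral.integral_eq_sub_of_hasDerivAt (fun t ht => ?_) ?_
    · rw [uIcc_of_le huT'.le] at ht
      exact hGd t (hu0.trans ht.1)
    · apply ContinuousOn.intervalIntegrable
      rw [uIcc_of_le huT'.le]
      exact hψc.mono (Icc_subset_Icc_left hu0)
  rw [hint] at key
  have h1 : G u ≤ S u := by
    rw [hS u huI]
    simp only [hG]
    refine mul_le_mul_of_nonneg_left ?_ hn'.le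
    rcases huA.eq_or_lt with h9 | h9
    · rw [h9]
    · have hrs := hrpos u hu0
      obtain ⟨c, hc1, hc2⟩ := exists_hasDerivAt_eq_slope P369.g bb h9
        (fun x hx => (hasDerivAt_g (hrs.trans_le hx.1)).continuousAt.continuousWithinAt)
        (fun x hx => hasDerivAt_g (hrs.trans hx.1))
      have h1 := bb_pos (hrs.trans hc1.1)
      rw [hc2, div_pos_iff_of_pos_right (by linarith)] at h1
      linarith
  have h2 : G T ≤ S T := by linarith
  rw [hS T ⟨hT, le_rfl⟩] at h2
  have h3 := g_mono_aux (hrpos T hT) (hR T ⟨hT, le_rfl⟩) (le_of_mul_le_mul_left h2 hn')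
  linarith

end

end Vale.Agent.P369N
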