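import Mathlib
import Vale.Agent.P369.Setup

/-!
Scalar facts for the entropy photon-number inequality with a product of thermal states of
different mean photon numbers: the function `H(r) = r (r+1) log (1+1/r)`, the curve
`s = r + (μ-1) H(r)`, and the resulting bound for the entropy production.
-/

namespace Vale.Agent.P369N

open Real Set

noncomputable section

/-- `b(r) = log (1 + 1/r)` -/
def bb (r : ℝ) : ℝ := Real.log (1 + 1 / r)

/-- `H(r) = r (r+1) b(r)` -/
def HH (r : ℝ) : ℝ := r * (r + 1) * bb r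

/-- the derivative of `H` -/
def DH (r : ℝ) : ℝ := (2 * r + 1) * bb r - 1

/-- the curve `s = r + (μ-1) H(r)` -/
def sc (μ r : ℝ) : ℝ := r + (μ - 1) * HH r

theorem one_lt_aux {r : ℝ} (hr : 0 < r) : 1 < 1 + 1 / r := by
  have : 0 < 1 / r := by positivity
  linarith

theorem bb_pos {r : ℝ} (hr : 0 < r) : 0 < bb r := Real.log_pos (one_lt_aux hr)

theorem mul_bb_lt {r : ℝ} (hr : 0 < r) : r * bb r < 1 := by
  have h := Real.log_lt_sub_one_of_pos (show (0 : ℝ) < 1 + 1 / r by linarith [one_lt_aux hr])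
    (one_lt_aux hr).ne'
  have h2 : r * bb r < r * (1 + 1 / r - 1) := mul_lt_mul_of_pos_left h hr
  have h3 : r * (1 + 1 / r - 1) = 1 := by field_simp; ring
  linarith

theorem lt_mul_bb {r : ℝ} (hr : 0 < r) : 1 < (r + 1) * bb r := by
  have h1 : 0 < r + 1 := by linarith
  have hx : (0 : ℝ) < r / (r + 1) := by positivity
  have h := Real.log_lt_sub_one_of_pos hx (by
    intro h
    rw [div_eq_one_iff_eq h1.ne'] at h
    linarith)
  have h2 : Real.log (r / (r + 1)) = -bb r := by
    unfold bb
    rw [← Real.log_inv]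
    congr 1
    field_simp
  rw [h2] at h
  have h3 : (r + 1) * -bb r < (r + 1) * (r / (r + 1) - 1) := mul_lt_mul_of_pos_left h h1
  have h4 : (r + 1) * (r / (r + 1) - 1) = -1 := by field_simp; ring
  linarith

theorem bb_eq {r : ℝ} (hr : 0 < r) : bb r = Real.log (r + 1) - Real.log r := by
  unfold bb
  rw [← Real.log_div (by linarith) hr.ne']
  congr 1
  field_simp

theorem hasDerivAt_bb {r : ℝ} (hr : 0 < r) : HasDerivAt bb (-(1 / (r * (r + 1)))) r := by
  have h1 : HasDerivAt (fun x => Real.log (x + 1) - Real.log x) (1 / (r + 1) - 1 / r) r := by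
    have ha : HasDerivAt (fun x : ℝ => x + 1) 1 r := (hasDerivAt_id r).add_const 1
    exact (ha.log (by linarith)).sub (by simpa using (hasDerivAt_id r).log hr.ne')
  have h2 : (1 / (r + 1) - 1 / r) = -(1 / (r * (r + 1))) := by field_simp; ring
  rw [h2] at h1
  refine h1.congr_of_eventuallyEq ?_
  filter_upwards [lt_mem_nhds hr] with x hx
  exact bb_eq hx

theorem hasDerivAt_HH {r : ℝ} (hr : 0 < r) : HasDerivAt HH (DH r) r := by
  have h1 : HasDerivAt (fun x : ℝ => x * (x + 1)) (2 * r + 1) r := by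
    have := (hasDerivAt_id r).mul ((hasDerivAt_id r).add_const 1)
    refine this.congr_deriv ?_
    simp only [id]
    ring
  refine (h1.mul (hasDerivAt_bb hr)).congr_deriv ?_
  unfold DH
  have : r * (r + 1) * -(1 / (r * (r + 1))) = -1 := by
    have : r * (r + 1) ≠ 0 := by positivity
    field_simp
  linear_combination this

theorem hasDerivAt_DH {r : ℝ} (hr : 0 < r) :
    HasDerivAt DH (2 * bb r - (2 * r + 1) / (r * (r + 1))) r := by
  have h1 : HasDerivAt (fun x : ℝ => 2 * x + 1) 2 r := by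
    simpa using ((hasDerivAt_id r).const_mul 2).add_const 1
  refine ((h1.mul (hasDerivAt_bb hr)).sub_const 1).congr_deriv ?_
  ring

/-- the trapezoid rule -/
theorem bb_trap {r : ℝ} (hr : 0 < r) : 2 * bb r - (2 * r + 1) / (r * (r + 1)) ≤ 0 := by
  have hx : (0 : ℝ) < 1 + 1 / r := by linarith [one_lt_aux hr]
  have h := (Real.self_le_sinh_iff (x := bb r)).2 (bb_pos hr).le
  unfold bb at h
  rw [Real.sinh_log hx] at h
  have h2 : (1 + 1 / r - (1 + 1 / r)⁻¹) / 2 = (2 * r + 1) / (r * (r + 1)) / 2 := by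
    field_simp
    ring
  rw [h2] at h
  unfold bb
  linarith

theorem DH_anti : AntitoneOn DH (Ioi 0) := by
  refine antitoneOn_of_deriv_nonpos (convex_Ioi 0)
    (fun x hx => (hasDerivAt_DH hx).continuousAt.continuousWithinAt) ?_ ?_
  · intro x hx
    rw [interior_Ioi] at hx
    exact (hasDerivAt_DH hx).differentiableAt.differentiableWithinAt
  · intro x hx
    rw [interior_Ioi] at hx
    rw [(hasDerivAt_DH hx).deriv]
    exact bb_trap hx

/-- concavity of `H` -/
theorem HH_tangent {r s : ℝ} (hr : 0 < r) (hs : 0 < s) : HH s ≤ HH r + DH r * (s - r) := by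
  rcases lt_trichotomy r s with h | h | h
  · obtain ⟨c, hc, hc2⟩ := exists_hasDerivAt_eq_slope HH DH h
      (fun x hx => (hasDerivAt_HH (hr.trans_le hx.1)).continuousAt.continuousWithinAt)
      (fun x hx => hasDerivAt_HH (hr.trans hx.1))
    have h1 : DH c ≤ DH r := DH_anti hr (hr.trans hc.1) hc.1.le
    rw [hc2, div_le_iff₀ (by linarith)] at h1
    linarith
  · subst h; simp
  · obtain ⟨c, hc, hc2⟩ := exists_hasDerivAt_eq_slope HH DH h
      (fun x hx => (hasDerivAt_HH (hs.trans_le hx.1)).continuousAt.continuousWithinAt)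
      (fun x hx => hasDerivAt_HH (hs.trans hx.1))
    have h1 : DH r ≤ DH c := DH_anti (hs.trans hc.1) hr hc.2.le
    rw [hc2, le_div_iff₀ (by linarith)] at h1
    linarith

theorem HH_pos {r : ℝ} (hr : 0 < r) : 0 < HH r := by
  have := bb_pos hr
  unfold HH
  positivity

theorem lt_HH {r : ℝ} (hr : 0 < r) : r < HH r := by
  have := mul_lt_mul_of_pos_left (lt_mul_bb hr) hr
  unfold HH
  linarith

theorem HH_lt {r : ℝ} (hr : 0 < r) : HH r < r + 1 := by
  have := mul_lt_mul_of_pos_left (mul_bb_lt hr) (show 0 < r + 1 by linarith)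
  unfold HH
  linarith

/-- `(r+1) b(r)` is nonincreasing -/
theorem ob_anti : AntitoneOn (fun r => (r + 1) * bb r) (Ioi 0) := by
  have hd : ∀ x : ℝ, 0 < x → HasDerivAt (fun r => (r + 1) * bb r) (bb x - 1 / x) x := by
    intro x hx
    refine (((hasDerivAt_id x).add_const 1).mul (hasDerivAt_bb hx)).congr_deriv ?_
    simp only [id]
    field_simp
    ring
  refine antitoneOn_of_deriv_nonpos (convex_Ioi 0)
    (fun x hx => (hd x hx).continuousAt.continuousWithinAt) ?_ ?_
  · intro x hx
    rw [interior_Ioi] at hx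
    exact (hd x hx).differentiableAt.differentiableWithinAt
  · intro x hx
    rw [interior_Ioi] at hx
    rw [(hd x hx).deriv, sub_nonpos, le_div_iff₀ hx]
    have := mul_bb_lt hx
    linarith

/-- the branch is an upper set -/
theorem sc_pos_mono {μ r x : ℝ} (hr : 0 < r) (h : 0 < sc μ r) (hx : r ≤ x) : 0 < sc μ x := by
  have hx0 : 0 < x := hr.trans_le hx
  rcases le_total 1 μ with h1 | h1
  · have := HH_pos hx0
    have h2 : 0 ≤ (μ - 1) * HH x := mul_nonneg (by linarith) this.le
    unfold sc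
    linarith
  · have h2 : (x + 1) * bb x ≤ (r + 1) * bb r := ob_anti hr hx0 hx
    have e : ∀ y : ℝ, sc μ y = y * (1 - (1 - μ) * ((y + 1) * bb y)) := by
      intro y; unfold sc HH; ring
    rw [e] at h ⊢
    have h3 : 0 < 1 - (1 - μ) * ((r + 1) * bb r) := by
      by_contra hc
      push Not at hc
      have := mul_nonpos_of_nonneg_of_nonpos hr.le hc
      linarith
    have h4 : (1 - μ) * ((x + 1) * bb x) ≤ (1 - μ) * ((r + 1) * bb r) :=
      mul_le_mul_of_nonneg_left h2 (by linarith)
    exact mul_pos hx0 (by linarith)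

/-- the slope of the curve -/
theorem HH_sc_le {μ r : ℝ} (hr : 0 < r) (h : 0 < sc μ r) :
    HH (sc μ r) ≤ (1 + (μ - 1) * DH r) * HH r := by
  have := HH_tangent hr h
  have e : sc μ r - r = (μ - 1) * HH r := by unfold sc; ring
  rw [e] at this
  linarith

theorem slope_pos {μ r : ℝ} (hr : 0 < r) (h : 0 < sc μ r) : 0 < 1 + (μ - 1) * DH r := by
  have h1 := HH_sc_le hr h
  have h2 := HH_pos h
  have h3 := HH_pos hr
  by_contra hc
  push Not at hc
  have := mul_nonpos_of_nonpos_of_nonneg hc h3.le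
  linarith

theorem hasDerivAt_sc {μ r : ℝ} (hr : 0 < r) : HasDerivAt (sc μ) (1 + (μ - 1) * DH r) r :=
  (hasDerivAt_id r).add ((hasDerivAt_HH hr).const_mul (μ - 1))

theorem hasDerivAt_g {x : ℝ} (hx : 0 < x) : HasDerivAt P369.g (bb x) x := by
  have h1 : HasDerivAt (fun t : ℝ => (t + 1) * Real.log (t + 1)) (Real.log (x + 1) + 1) x := by
    have ha : HasDerivAt (fun t : ℝ => t + 1) 1 x := (hasDerivAt_id x).add_const 1
    have := ha.mul (ha.log (show x + 1 ≠ 0 by linarith))
    refine this.congr_deriv ?_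
    have : x + 1 ≠ 0 := by linarith
    field_simp
  have h2 : HasDerivAt (fun t : ℝ => t * Real.log t) (Real.log x + 1) x := by
    have := (hasDerivAt_id x).mul ((hasDerivAt_id x).log hx.ne')
    refine this.congr_deriv ?_
    simp only [id]
    field_simp
  refine (h1.sub h2).congr_deriv ?_
  rw [bb_eq hx]
  ring

/-- the ratio `b(r) / b(s(r))` is nondecreasing on the branch -/
theorem ratio_mono {μ r x : ℝ} (hr : 0 < r) (h : 0 < sc μ r) (hx : r ≤ x) :
    bb r / bb (sc μ r) ≤ bb x / bb (sc μ x) := by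
  have hpos : ∀ y ∈ Icc r x, 0 < y ∧ 0 < sc μ y := fun y hy =>
    ⟨hr.trans_le hy.1, sc_pos_mono hr h hy.1⟩
  have hd : ∀ y ∈ Icc r x, HasDerivAt (fun r => bb r / bb (sc μ r))
      ((-(1 / (y * (y + 1))) * bb (sc μ y) - bb y *
        (-(1 / (sc μ y * (sc μ y + 1))) * (1 + (μ - 1) * DH y))) / bb (sc μ y) ^ 2) y := by
    intro y hy
    obtain ⟨h1, h2⟩ := hpos y hy
    exact (hasDerivAt_bb h1).div ((hasDerivAt_bb h2).comp y (hasDerivAt_sc h1)) (bb_pos h2).ne'
  have hm : MonotoneOn (fun r => bb r / bb (sc μ r)) (Icc r x) := by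
    refine monotoneOn_of_deriv_nonneg (convex_Icc r x)
      (fun y hy => (hd y hy).continuousAt.continuousWithinAt) ?_ ?_
    · intro y hy
      exact (hd y (interior_subset hy)).differentiableAt.differentiableWithinAt
    · intro y hy
      rw [(hd y (interior_subset hy)).deriv]
      obtain ⟨h1, h2⟩ := hpos y (interior_subset hy)
      refine div_nonneg ?_ (sq_nonneg _)
      have h3 := HH_sc_le h1 h2
      have h4 := HH_pos h1
      have h5 := HH_pos h2
      have h6 := bb_pos h1
      have h7 := bb_pos h2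
      set D := 1 + (μ - 1) * DH y
      set s := sc μ y
      have e1 : bb y * (1 / (s * (s + 1)) * D) = bb y * bb s * D / HH s := by
        unfold HH
        field_simp
      have e2 : 1 / (y * (y + 1)) * bb s = bb y * bb s / HH y := by
        unfold HH
        field_simp
      have e3 : bb y * bb s / HH y ≤ bb y * bb s * D / HH s := by
        rw [div_le_div_iff₀ h4 h5]
        have := mul_le_mul_of_nonneg_left h3 (mul_pos h6 h7).le
        linarith
      linarith
  exact hm ⟨le_rfl, hx⟩ ⟨hx, le_rfl⟩ hx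

/-- `μ g(r) + b(r) (s - r) - λ g(s)` along the curve -/
def Psi (μ lam r : ℝ) : ℝ := μ * P369.g r + bb r * (sc μ r - r) - lam * P369.g (sc μ r)

theorem hasDerivAt_Psi {μ lam r : ℝ} (hr : 0 < r) (h : 0 < sc μ r) :
    HasDerivAt (Psi μ lam) ((1 + (μ - 1) * DH r) * (bb r - lam * bb (sc μ r))) r := by
  have h1 := ((hasDerivAt_g hr).const_mul μ).add
    ((hasDerivAt_bb hr).mul ((hasDerivAt_sc (μ := μ) hr).sub (hasDerivAt_id r)))
  have h2 := ((hasDerivAt_g h).comp r (hasDerivAt_sc (μ := μ) hr)).const_mul lam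
  refine (h1.sub h2).congr_deriv ?_
  have e : -(1 / (r * (r + 1))) * (sc μ r - r) = -((μ - 1) * bb r) := by
    unfold sc HH
    field_simp
    ring
  simp only [Pi.sub_apply, id]
  linear_combination e

/-- the minimum along the branch -/
theorem Psi_min {μ R r : ℝ} (hR : 0 < R) (hR' : 0 < sc μ R) (hr : 0 < r) (hr' : 0 < sc μ r) :
    Psi μ (bb R / bb (sc μ R)) R ≤ Psi μ (bb R / bb (sc μ R)) r := by
  set lam := bb R / bb (sc μ R) with hlam
  rcases lt_trichotomy R r with h | h | h
  · obtain ⟨c, hc, hc2⟩ := exists_hasDerivAt_eq_slope (Psi μ lam)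
      (fun r => (1 + (μ - 1) * DH r) * (bb r - lam * bb (sc μ r))) h
      (fun x hx => (hasDerivAt_Psi (hR.trans_le hx.1)
        (sc_pos_mono hR hR' hx.1)).continuousAt.continuousWithinAt)
      (fun x hx => hasDerivAt_Psi (hR.trans hx.1) (sc_pos_mono hR hR' hx.1.le))
    have c0 : 0 < c := hR.trans hc.1
    have c1 := sc_pos_mono hR hR' hc.1.le
    have h1 := ratio_mono hR hR' hc.1.le
    rw [← hlam, le_div_iff₀ (bb_pos c1)] at h1
    have h2 : 0 ≤ (1 + (μ - 1) * DH c) * (bb c - lam * bb (sc μ c)) :=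
      mul_nonneg (slope_pos c0 c1).le (by linarith)
    rw [hc2, le_div_iff₀ (by linarith)] at h2
    linarith
  · rw [h]
  · obtain ⟨c, hc, hc2⟩ := exists_hasDerivAt_eq_slope (Psi μ lam)
      (fun r => (1 + (μ - 1) * DH r) * (bb r - lam * bb (sc μ r))) h
      (fun x hx => (hasDerivAt_Psi (hr.trans_le hx.1)
        (sc_pos_mono hr hr' hx.1)).continuousAt.continuousWithinAt)
      (fun x hx => hasDerivAt_Psi (hr.trans hx.1) (sc_pos_mono hr hr' hx.1.le))
    have c0 : 0 < c := hr.trans hc.1
    have c1 := sc_pos_mono hr hr' hc.1.le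
    have h1 := ratio_mono c0 c1 hc.2.le
    rw [← hlam, div_le_iff₀ (bb_pos c1)] at h1
    have h2 : (1 + (μ - 1) * DH c) * (bb c - lam * bb (sc μ c)) ≤ 0 :=
      mul_nonpos_of_nonneg_of_nonpos (slope_pos c0 c1).le (by linarith)
    rw [hc2, div_le_iff₀ (by linarith)] at h2
    linarith

/-- the curve meets every positive value -/
theorem exists_root {μ s : ℝ} (hμ : 0 < μ) (hs : 0 < s) :
    ∃ r, 0 < r ∧ sc μ r = s := by
  set f : ℝ → ℝ := fun r => r + (μ - 1) * ((r + 1) * (r * Real.log (r + 1) + Real.negMulLog r))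
    with hf
  have hfe : ∀ r, 0 < r → f r = sc μ r := by
    intro r hr
    simp only [hf]
    unfold sc HH Real.negMulLog
    rw [bb_eq hr]
    ring
  have hfc : ContinuousOn f (Ici 0) := by
    have h1 : ContinuousOn (fun r : ℝ => Real.log (r + 1)) (Ici 0) := by
      refine ContinuousOn.log (by fun_prop) fun x hx => ?_
      have : (0 : ℝ) ≤ x := hx
      linarith
    have h2 : ContinuousOn Real.negMulLog (Ici 0) := Real.continuous_negMulLog.continuousOn
    exact continuousOn_id.add (continuousOn_const.mul ((continuousOn_id.add continuousOn_const).mul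
      ((continuousOn_id.mul h1).add h2)))
  have hf0 : f 0 = 0 := by simp [hf]
  obtain ⟨T, hT, hTs⟩ : ∃ T, 0 < T ∧ s ≤ f T := by
    rcases le_total 1 μ with h | h
    · refine ⟨s, hs, ?_⟩
      rw [hfe s hs]
      have := mul_nonneg (sub_nonneg.2 h) (HH_pos hs).le
      unfold sc
      linarith
    · refine ⟨(s + 1) / μ, by positivity, ?_⟩
      have hp : 0 < (s + 1) / μ := by positivity
      rw [hfe _ hp]
      have h1 := mul_le_mul_of_nonneg_left (HH_lt hp).le (sub_nonneg.2 h)
      have h2 : μ * ((s + 1) / μ) = s + 1 := by field_simp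
      unfold sc
      nlinarith
  have h := intermediate_value_Icc hT.le (hfc.mono Icc_subset_Ici_self)
  obtain ⟨r, hr, hrs⟩ := h (show s ∈ Icc (f 0) (f T) from ⟨by rw [hf0]; exact hs.le, hTs⟩)
  have hr0 : 0 < r := by
    rcases hr.1.eq_or_lt with h0 | h0
    · rw [← h0, hf0] at hrs
      linarith
    · exact h0
  exact ⟨r, hr0, by rw [← hfe r hr0, hrs]⟩

/-- the gain weight `c₊(r) = r b / (1 - r b)` -/
def cp (r : ℝ) : ℝ := r * bb r / (1 - r * bb r)

/-- the loss weight `c₋(r) = (r+1) b / ((r+1) b - 1)` -/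
def cm (r : ℝ) : ℝ := (r + 1) * bb r / ((r + 1) * bb r - 1)

/-- choosing the better of two bounds mode by mode -/
theorem mix_le {n : ℕ} {G u v a : Fin n → ℝ} {μ S : ℝ} (hμ : 0 ≤ μ) (ha : ∀ j, 0 ≤ a j)
    (haμ : ∀ j, a j ≤ μ)
    (h : ∀ K : Finset (Fin n), ∑ j ∈ K, (G j - u j) + ∑ j ∈ Kᶜ, (G j - v j) ≤ S) :
    μ * (∑ j, G j - S) ≤ ∑ j, (a j * u j + (μ - a j) * v j) := by
  classical
  have h1 := h (Finset.univ.filter fun j => u j ≤ v j)
  have h2 : ∑ j ∈ (Finset.univ.filter fun j => u j ≤ v j), (G j - u j) +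
      ∑ j ∈ (Finset.univ.filter fun j => u j ≤ v j)ᶜ, (G j - v j) =
      ∑ j, (G j - min (u j) (v j)) := by
    rw [← Finset.sum_add_sum_compl (Finset.univ.filter fun j => u j ≤ v j)
      (fun j => G j - min (u j) (v j))]
    congr 1
    · refine Finset.sum_congr rfl fun j hj => ?_
      rw [min_eq_left (Finset.mem_filter.1 hj).2]
    · refine Finset.sum_congr rfl fun j hj => ?_
      rw [Finset.mem_compl, Finset.mem_filter, not_and] at hj
      rw [min_eq_right (not_le.1 (hj (Finset.mem_univ j))).le]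
  rw [h2, Finset.sum_sub_distrib] at h1
  have h3 : μ * ∑ j, min (u j) (v j) ≤ ∑ j, (a j * u j + (μ - a j) * v j) := by
    rw [Finset.mul_sum]
    refine Finset.sum_le_sum fun j _ => ?_
    have e : μ * min (u j) (v j) = a j * min (u j) (v j) + (μ - a j) * min (u j) (v j) := by ring
    rw [e]
    exact add_le_add (mul_le_mul_of_nonneg_left (min_le_left _ _) (ha j))
      (mul_le_mul_of_nonneg_left (min_le_right _ _) (sub_nonneg.2 (haμ j)))
  have h4 : μ * (∑ j, G j - S) ≤ μ * ∑ j, min (u j) (v j) :=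
    mul_le_mul_of_nonneg_left (by linarith) hμ
  exact h4.trans h3

/-- decomposition of the thermal rate for `s ≥ r` -/
theorem rate_gain {μ r s h l : ℝ} (hr : 0 < r) (hs : s = sc μ r) :
    s * h - (s + 1) * l - bb r * (s - r) =
      (s + 1) / (r + 1) * (r * h - (r + 1) * l) +
        (μ - (s + 1) / (r + 1)) * (cp r * (h - (r + 1) * bb r)) := by
  have h1 : 0 < 1 - r * bb r := by linarith [mul_bb_lt hr]
  have hb := bb_pos hr
  have e : (μ - (s + 1) / (r + 1)) * cp r = (s - r) / (r + 1) := by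
    unfold cp
    rw [hs]
    unfold sc HH
    field_simp
    ring
  rw [← mul_assoc, e]
  field_simp
  ring

/-- decomposition of the thermal rate for `s ≤ r` -/
theorem rate_loss {μ r s h l : ℝ} (hr : 0 < r) (hs : s = sc μ r) :
    s * h - (s + 1) * l - bb r * (s - r) =
      s / r * (r * h - (r + 1) * l) + (μ - s / r) * (cm r * (r * bb r - l)) := by
  have h1 : 0 < (r + 1) * bb r - 1 := by linarith [lt_mul_bb hr]
  have hb := bb_pos hr
  have e : (μ - s / r) * cm r = (r - s) / r := by
    unfold cm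
    rw [hs]
    unfold sc HH
    field_simp
    ring
  rw [← mul_assoc, e]
  field_simp
  ring

/-- the scalar bound along the branch, in the form used for each mode -/
theorem branch_bound {μ R s r : ℝ} (hR : 0 < R) (hR' : 0 < sc μ R) (hs : 0 < s) (hr : 0 < r)
    (hrs : sc μ r = s) :
    μ * P369.g R + bb R * (sc μ R - R) - bb R / bb (sc μ R) * P369.g (sc μ R) ≤
      μ * P369.g r + bb r * (s - r) - bb R / bb (sc μ R) * P369.g s := by
  have := Psi_min (μ := μ) hR hR' hr (by rw [hrs]; exact hs)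
  unfold Psi at this
  rw [hrs] at this
  exact this

/-- The scalar part of the entropy production bound: from the two families of tangent
inequalities to the lower bound of the entropy production of the thermal flow. -/
theorem rate_bound {n : ℕ} {h l s : Fin n → ℝ} {S R N : ℝ} (hs : ∀ j, 0 < s j) (hR : 0 < R)
    (hN : 0 < N) (hS : S = n * P369.g R) (hB : ∑ j, P369.g (s j) = n * P369.g N)
    (hA : ∀ r : Fin n → ℝ, (∀ j, 0 < r j) → ∀ K : Finset (Fin n),
      ∑ j ∈ K, (P369.g (r j) - (r j * h j - (r j + 1) * l j)) +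
        ∑ j ∈ Kᶜ, (P369.g (r j) - cp (r j) * (h j - (r j + 1) * bb (r j))) ≤ S)
    (hL : ∀ r : Fin n → ℝ, (∀ j, 0 < r j) → ∀ K : Finset (Fin n),
      ∑ j ∈ K, (P369.g (r j) - (r j * h j - (r j + 1) * l j)) +
        ∑ j ∈ Kᶜ, (P369.g (r j) - cm (r j) * (r j * bb (r j) - l j)) ≤ S) :
    n * (bb R * (N - R)) ≤ ∑ j, (s j * h j - (s j + 1) * l j) := by
  have hHR := HH_pos hR
  set μ := 1 + (N - R) / HH R with hμ
  have hscR : sc μ R = N := by
    unfold sc
    rw [hμ]
    field_simp
    ring
  have hμ0 : 0 < μ := by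
    rw [hμ]
    have h1 := lt_HH hR
    have h2 : -1 < (N - R) / HH R := by
      rw [lt_div_iff₀ hHR]
      linarith
    linarith
  choose r hr hrs using fun j => exists_root hμ0 (hs j)
  -- the scalar bound, summed
  have hsum : n * (bb R * (N - R)) ≤
      ∑ j, bb (r j) * (s j - r j) + μ * (∑ j, P369.g (r j) - S) := by
    have h1 : ∀ j, μ * P369.g R + bb R * (N - R) - bb R / bb N * P369.g N ≤
        μ * P369.g (r j) + bb (r j) * (s j - r j) - bb R / bb N * P369.g (s j) := by
      intro j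
      have := branch_bound (μ := μ) hR (by rw [hscR]; exact hN) (hs j) (hr j) (hrs j)
      rwa [hscR] at this
    have h2 := Finset.sum_le_sum fun j (_ : j ∈ Finset.univ) => h1 j
    rw [Finset.sum_const, Finset.card_univ, Fintype.card_fin, nsmul_eq_mul,
      Finset.sum_sub_distrib, Finset.sum_add_distrib, ← Finset.mul_sum, ← Finset.mul_sum, hB] at h2
    rw [hS]
    linarith
  refine hsum.trans ?_
  have hsub : ∑ j, (s j * h j - (s j + 1) * l j) = ∑ j, bb (r j) * (s j - r j) +
      ∑ j, (s j * h j - (s j + 1) * l j - bb (r j) * (s j - r j)) := by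
    rw [← Finset.sum_add_distrib]
    exact Finset.sum_congr rfl fun j _ => by ring
  rw [hsub]
  refine add_le_add le_rfl ?_
  rcases le_total 1 μ with h1 | h1
  · -- `r ≤ s`
    have hrl : ∀ j, r j ≤ s j := by
      intro j
      rw [← hrs j]
      have := mul_nonneg (sub_nonneg.2 h1) (HH_pos (hr j)).le
      unfold sc
      linarith
    have e : ∀ j, s j * h j - (s j + 1) * l j - bb (r j) * (s j - r j) =
        (s j + 1) / (r j + 1) * (r j * h j - (r j + 1) * l j) +
        (μ - (s j + 1) / (r j + 1)) * (cp (r j) * (h j - (r j + 1) * bb (r j))) :=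
      fun j => rate_gain (hr j) (hrs j).symm
    simp only [e]
    refine mix_le hμ0.le (fun j => ?_) (fun j => ?_) (hA r hr)
    · have := hr j
      have := hs j
      positivity
    · -- `(s+1)/(r+1) ≤ μ`
      have h2 := hr j
      have h3 := lt_HH h2
      have h4 := HH_lt h2
      rw [div_le_iff₀ (by linarith), ← hrs j]
      unfold sc
      have h5 : (μ - 1) * HH (r j) ≤ (μ - 1) * (r j + 1) :=
        mul_le_mul_of_nonneg_left h4.le (sub_nonneg.2 h1)
      linarith
  · have e : ∀ j, s j * h j - (s j + 1) * l j - bb (r j) * (s j - r j) =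
        s j / r j * (r j * h j - (r j + 1) * l j) +
        (μ - s j / r j) * (cm (r j) * (r j * bb (r j) - l j)) :=
      fun j => rate_loss (hr j) (hrs j).symm
    simp only [e]
    refine mix_le hμ0.le (fun j => ?_) (fun j => ?_) (hL r hr)
    · have := hr j
      have := hs j
      positivity
    · have h2 := hr j
      have h3 := lt_HH h2
      rw [div_le_iff₀ h2, ← hrs j]
      unfold sc
      have h5 : (1 - μ) * r j ≤ (1 - μ) * HH (r j) :=
        mul_le_mul_of_nonneg_left h3.le (sub_nonneg.2 h1)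
      linarith

end

end Vale.Agent.P369N
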