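import Vale.Agent.P369.Aniso.Scalar

/-!
The scalar facts mode by mode: cold case (`R ≤ N_B`) and hot case (`N_B ≤ R`).
-/

namespace Vale.Agent.P369N

open Real Set

noncomputable section

/-- the total multiplier is positive -/
theorem mu_pos {R N : ℝ} (hR : 0 < R) (hN : 0 < N) : 0 < 1 + (N - R) / HH R := by
  have hHR := HH_pos hR
  have h1 := lt_HH hR
  have h2 : -1 < (N - R) / HH R := by
    rw [lt_div_iff₀ hHR]
    linarith
  linarith

theorem sc_mu {R N : ℝ} (hR : 0 < R) : sc (1 + (N - R) / HH R) R = N := by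
  have hHR := HH_pos hR
  unfold sc
  field_simp
  ring

/-- cold case -/
theorem scal_cold {R N : ℝ} (hR : 0 < R) (hN : 0 < N) (hRN : R ≤ N) {s : ℝ} (hs : 0 < s) :
    ∃ r : ℝ, 0 < r ∧ ∃ a : ℝ, 0 ≤ a ∧ a ≤ 1 + (N - R) / HH R ∧
      (∀ h l : ℝ, s * h - (s + 1) * l = bb r * (s - r) + a * (r * h - (r + 1) * l) +
        (1 + (N - R) / HH R - a) * (cp r * (h - (r + 1) * bb r))) ∧
      (1 + (N - R) / HH R) * P369.g R + bb R * (N - R) - bb R / bb N * P369.g N ≤
        (1 + (N - R) / HH R) * P369.g r + bb r * (s - r) - bb R / bb N * P369.g s := by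
  have hμ := mu_pos hR hN
  have hscR := sc_mu (N := N) hR
  have hHR := HH_pos hR
  have h1 : 1 ≤ 1 + (N - R) / HH R := by
    have : 0 ≤ (N - R) / HH R := div_nonneg (by linarith) hHR.le
    linarith
  set μ := 1 + (N - R) / HH R with hμd
  obtain ⟨r, hr, hrs⟩ := exists_root hμ hs
  refine ⟨r, hr, (s + 1) / (r + 1), by positivity, ?_, fun h l => ?_, ?_⟩
  · have h4 := HH_lt hr
    rw [div_le_iff₀ (by linarith), ← hrs]
    unfold sc
    have h5 : (μ - 1) * HH r ≤ (μ - 1) * (r + 1) :=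
      mul_le_mul_of_nonneg_left h4.le (sub_nonneg.2 h1)
    linarith
  · have := rate_gain (h := h) (l := l) hr hrs.symm
    linarith
  · have := branch_bound (μ := μ) hR (by rw [hscR]; exact hN) hs hr hrs
    rwa [hscR] at this

/-- hot case -/
theorem scal_hot {R N : ℝ} (hR : 0 < R) (hN : 0 < N) (hRN : N ≤ R) {s : ℝ} (hs : 0 < s) :
    ∃ r : ℝ, 0 < r ∧ ∃ a : ℝ, 0 ≤ a ∧ a ≤ 1 + (N - R) / HH R ∧
      (∀ h l : ℝ, s * h - (s + 1) * l = bb r * (s - r) + a * (r * h - (r + 1) * l) +
        (1 + (N - R) / HH R - a) * (cm r * (r * bb r - l))) ∧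
      (1 + (N - R) / HH R) * P369.g R + bb R * (N - R) - bb R / bb N * P369.g N ≤
        (1 + (N - R) / HH R) * P369.g r + bb r * (s - r) - bb R / bb N * P369.g s := by
  have hμ := mu_pos hR hN
  have hscR := sc_mu (N := N) hR
  have hHR := HH_pos hR
  have h1 : 1 + (N - R) / HH R ≤ 1 := by
    have : (N - R) / HH R ≤ 0 := div_nonpos_of_nonpos_of_nonneg (by linarith) hHR.le
    linarith
  set μ := 1 + (N - R) / HH R with hμd
  obtain ⟨r, hr, hrs⟩ := exists_root hμ hs
  refine ⟨r, hr, s / r, by positivity, ?_, fun h l => ?_, ?_⟩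
  · have h3 := lt_HH hr
    rw [div_le_iff₀ hr, ← hrs]
    unfold sc
    have h5 : (1 - μ) * r ≤ (1 - μ) * HH r := mul_le_mul_of_nonneg_left h3.le (sub_nonneg.2 h1)
    linarith
  · have := rate_loss (h := h) (l := l) hr hrs.symm
    linarith
  · have := branch_bound (μ := μ) hR (by rw [hscR]; exact hN) hs hr hrs
    rwa [hscR] at this

/-- The scalar part in the form of one run: if the entropy is bounded below by the better of the
two bounds in every mode, the entropy production is at least `n b(R) (N - R)` (cold case). -/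
theorem rate_bound_cold {n : ℕ} {h l s : Fin n → ℝ} {S R N : ℝ} (hs : ∀ j, 0 < s j) (hR : 0 < R)
    (hN : 0 < N) (hRN : R ≤ N) (hS : S = n * P369.g R) (hB : ∑ j, P369.g (s j) = n * P369.g N)
    (hA : ∀ r : Fin n → ℝ, (∀ j, 0 < r j) →
      ∑ j, (P369.g (r j) - min (r j * h j - (r j + 1) * l j)
        (cp (r j) * (h j - (r j + 1) * bb (r j)))) ≤ S) :
    n * (bb R * (N - R)) ≤ ∑ j, (s j * h j - (s j + 1) * l j) := by
  have hμ := mu_pos hR hN
  choose r hr a ha haμ hdec hsc using fun j => scal_cold hR hN hRN (hs j)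
  set μ := 1 + (N - R) / HH R with hμd
  have h0 := Finset.sum_le_sum fun j (_ : j ∈ Finset.univ) => hsc j
  rw [Finset.sum_const, Finset.card_univ, Fintype.card_fin, nsmul_eq_mul,
    Finset.sum_sub_distrib, Finset.sum_add_distrib, ← Finset.mul_sum, ← Finset.mul_sum, hB] at h0
  have h1 := mul_le_mul_of_nonneg_left (hA r hr) hμ.le
  rw [Finset.sum_sub_distrib, mul_sub] at h1
  have h2 : μ * ∑ j, min (r j * h j - (r j + 1) * l j)
      (cp (r j) * (h j - (r j + 1) * bb (r j))) ≤
      ∑ j, (a j * (r j * h j - (r j + 1) * l j) +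
        (μ - a j) * (cp (r j) * (h j - (r j + 1) * bb (r j)))) := by
    rw [Finset.mul_sum]
    refine Finset.sum_le_sum fun j _ => ?_
    set M := min (r j * h j - (r j + 1) * l j) (cp (r j) * (h j - (r j + 1) * bb (r j)))
    have e : μ * M = a j * M + (μ - a j) * M := by ring
    rw [e]
    exact add_le_add (mul_le_mul_of_nonneg_left (min_le_left _ _) (ha j))
      (mul_le_mul_of_nonneg_left (min_le_right _ _) (sub_nonneg.2 (haμ j)))
  have h3 : ∑ j, (s j * h j - (s j + 1) * l j) = ∑ j, bb (r j) * (s j - r j) +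
      ∑ j, (a j * (r j * h j - (r j + 1) * l j) +
        (μ - a j) * (cp (r j) * (h j - (r j + 1) * bb (r j)))) := by
    rw [← Finset.sum_add_distrib]
    refine Finset.sum_congr rfl fun j _ => ?_
    rw [hdec j]
    ring
  rw [h3]
  rw [hS] at h1
  linarith

/-- The same in the hot case. -/
theorem rate_bound_hot {n : ℕ} {h l s : Fin n → ℝ} {S R N : ℝ} (hs : ∀ j, 0 < s j) (hR : 0 < R)
    (hN : 0 < N) (hRN : N ≤ R) (hS : S = n * P369.g R) (hB : ∑ j, P369.g (s j) = n * P369.g N)
    (hA : ∀ r : Fin n → ℝ, (∀ j, 0 < r j) →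
      ∑ j, (P369.g (r j) - min (r j * h j - (r j + 1) * l j)
        (cm (r j) * (r j * bb (r j) - l j))) ≤ S) :
    n * (bb R * (N - R)) ≤ ∑ j, (s j * h j - (s j + 1) * l j) := by
  have hμ := mu_pos hR hN
  choose r hr a ha haμ hdec hsc using fun j => scal_hot hR hN hRN (hs j)
  set μ := 1 + (N - R) / HH R with hμd
  have h0 := Finset.sum_le_sum fun j (_ : j ∈ Finset.univ) => hsc j
  rw [Finset.sum_const, Finset.card_univ, Fintype.card_fin, nsmul_eq_mul,
    Finset.sum_sub_distrib, Finset.sum_add_distrib, ← Finset.mul_sum, ← Finset.mul_sum, hB] at h0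
  have h1 := mul_le_mul_of_nonneg_left (hA r hr) hμ.le
  rw [Finset.sum_sub_distrib, mul_sub] at h1
  have h2 : μ * ∑ j, min (r j * h j - (r j + 1) * l j) (cm (r j) * (r j * bb (r j) - l j)) ≤
      ∑ j, (a j * (r j * h j - (r j + 1) * l j) +
        (μ - a j) * (cm (r j) * (r j * bb (r j) - l j))) := by
    rw [Finset.mul_sum]
    refine Finset.sum_le_sum fun j _ => ?_
    set M := min (r j * h j - (r j + 1) * l j) (cm (r j) * (r j * bb (r j) - l j))
    have e : μ * M = a j * M + (μ - a j) * M := by ring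
    rw [e]
    exact add_le_add (mul_le_mul_of_nonneg_left (min_le_left _ _) (ha j))
      (mul_le_mul_of_nonneg_left (min_le_right _ _) (sub_nonneg.2 (haμ j)))
  have h3 : ∑ j, (s j * h j - (s j + 1) * l j) = ∑ j, bb (r j) * (s j - r j) +
      ∑ j, (a j * (r j * h j - (r j + 1) * l j) +
        (μ - a j) * (cm (r j) * (r j * bb (r j) - l j))) := by
    rw [← Finset.sum_add_distrib]
    refine Finset.sum_congr rfl fun j _ => ?_
    rw [hdec j]
    ring
  rw [h3]
  rw [hS] at h1
  linarith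

end

end Vale.Agent.P369N
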